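import Vale.Agent.P038.H391.MF
import Vale.Agent.P038.H71.Plan

/-!
# Glue: Seymour's second neighbourhood conjecture from (G) and `H391.no_strict`
-/

namespace Vale.Agent.P038.H824

open Finset Vale.Agent.P038.H139

universe u

/-- There is no normal form with the fewest arcs for `lam = 1`. -/
theorem no_nfmin {V : Type u} [Fintype V] [Nonempty V] {D : OGraph V} {w : V → ℝ}
    (h : NFmin 1 D w) : False := by
  classical
  let N : V → Finset V := fun a => cl D {a}
  have hmemN : ∀ a b, b ∈ N a ↔ b = a ∨ D.arc a b := by
    intro a b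
    show b ∈ cl D {a} ↔ _
    rw [mem_cl]
    simp only [Finset.mem_singleton, exists_eq_left]
  have hnb : ∀ X : Finset V, H391.nb N X = cl D X := by
    intro X
    ext z
    rw [H391.mem_nb, mem_cl]
    constructor
    · rintro ⟨x, hx, hz⟩
      rcases (hmemN x z).1 hz with rfl | hz
      · exact Or.inl hx
      · exact Or.inr ⟨x, hx, hz⟩
    · rintro (hz | ⟨x, hx, hz⟩)
      · exact ⟨z, hz, (hmemN z z).2 (Or.inl rfl)⟩
      · exact ⟨x, hx, (hmemN x z).2 (Or.inr hz)⟩
  have hasym : ∀ a b, D.arc a b → ¬ D.arc b a := fun a b hab => D.asymm a b hab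
  refine H391.no_strict N (fun a => (hmemN a a).2 (Or.inl rfl)) ?_ w h.toNF.pos ?_ ?_
  · intro a b hb ha
    rcases (hmemN a b).1 hb with rfl | hb
    · rfl
    · rcases (hmemN b a).1 ha with rfl | ha
      · rfl
      · exact absurd ha (hasym a b hb)
  · intro a
    have h1 := h.toNF.one a
    have hne : (N1 D a).Nonempty := by
      by_contra hc
      rw [Finset.not_nonempty_iff_eq_empty] at hc
      have h2 := W_nonneg h.toNF.nonneg (N2 D a)
      unfold Fw at h1
      rw [hc] at h1
      have h3 : W w (∅ : Finset V) = 0 := Finset.sum_empty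
      rw [h3] at h1
      linarith
    obtain ⟨b, hb⟩ := hne
    rw [mem_N1] at hb
    refine ⟨b, (hmemN a b).2 (Or.inr hb), ?_⟩
    rintro rfl
    exact hasym b b hb hb
  · intro X hX
    rw [hnb] at hX ⊢
    set L := H71.Lx D X with hL
    have hL' : L = outS D X \ X := hL
    have hclX : cl D X = X ∪ L := by
      ext z
      rw [mem_cl, Finset.mem_union, hL', Finset.mem_sdiff, mem_outS]
      tauto
    have hdisj : Disjoint X L := by
      rw [hL']
      exact Finset.disjoint_sdiff
    have hLne : (∅ : Finset V) ⊂ L := by
      rw [Finset.empty_ssubset]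
      by_contra hc
      rw [Finset.not_nonempty_iff_eq_empty] at hc
      rw [hc, Finset.union_empty] at hclX
      exact hX hclX
    have hplan := H71.plan_lt h X ∅ hLne
    rw [← hL] at hplan
    have hclcl : cl D (cl D X) = X ∪ (cl D L \ X) := by
      ext z
      constructor
      · intro hz
        rw [Finset.mem_union, Finset.mem_sdiff]
        by_cases hzX : z ∈ X
        · exact Or.inl hzX
        · refine Or.inr ⟨?_, hzX⟩
          rw [mem_cl] at hz ⊢
          rcases hz with hz | ⟨y, hy, hyz⟩
          · rw [hclX, Finset.mem_union] at hz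
            exact Or.inl (hz.resolve_left hzX)
          · rw [hclX, Finset.mem_union] at hy
            rcases hy with hy | hy
            · refine Or.inl ?_
              rw [hL', Finset.mem_sdiff, mem_outS]
              exact ⟨⟨y, hy, hyz⟩, hzX⟩
            · exact Or.inr ⟨y, hy, hyz⟩
      · intro hz
        rw [Finset.mem_union, Finset.mem_sdiff] at hz
        rw [mem_cl]
        rcases hz with hz | ⟨hz, -⟩
        · left
          rw [hclX]
          exact Finset.mem_union_left _ hz
        · rw [mem_cl] at hz
          rcases hz with hz | ⟨y, hy, hyz⟩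
          · left
            rw [hclX]
            exact Finset.mem_union_right _ hz
          · right
            refine ⟨y, ?_, hyz⟩
            rw [hclX]
            exact Finset.mem_union_right _ hy
    have e1 : W w (cl D X) = W w X + W w L := by
      rw [hclX]
      exact W_union hdisj
    have e2 : W w (cl D (cl D X)) = W w X + W w (cl D L \ X) := by
      rw [hclcl]
      exact W_union Finset.disjoint_sdiff
    have e3 : W w (cl D (∅ : Finset V) \ X) = 0 := by
      have : cl D (∅ : Finset V) = ∅ := by
        ext z
        rw [mem_cl]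
        simp
      rw [this, Finset.empty_sdiff]
      exact Finset.sum_empty
    have e4 : W w (∅ : Finset V) = 0 := Finset.sum_empty
    unfold H71.dd at hplan
    rw [e3, e4] at hplan
    have eW : ∀ S : Finset V, H391.W w S = W w S := fun _ => rfl
    unfold H391.hh
    simp only [hnb, eW]
    rw [e2, e1]
    linarith

/-- **Seymour's second neighbourhood conjecture**, weighted form. -/
theorem snc_weighted {V : Type u} [Fintype V] [Nonempty V] (D : OGraph V) (w : V → ℝ)
    (hw : ∀ v, 0 ≤ w v) : ∃ v, ∑ u ∈ N1 D v, w u ≤ ∑ u ∈ N2 D v, w u := by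
  obtain ⟨v, hv⟩ := snc_of_noNF (lam := 1) zero_le_one (fun V _ _ D w h => by
    obtain ⟨D', w', h'⟩ := exists_nfmin h
    exact no_nfmin h') D w hw
  exact ⟨v, by rwa [one_mul] at hv⟩

/-- **Seymour's second neighbourhood conjecture.** -/
theorem snc {V : Type u} [Fintype V] [Nonempty V] (D : OGraph V) :
    ∃ v, (N1 D v).card ≤ (N2 D v).card := by
  obtain ⟨v, hv⟩ := snc_weighted D (fun _ => (1 : ℝ)) (fun _ => zero_le_one)
  refine ⟨v, ?_⟩
  simp only [Finset.sum_const, nsmul_eq_mul, mul_one] at hv
  exact_mod_cast hv

end Vale.Agent.P038.H824
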